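import Mathlib
import Vale.Agent.Lib.P065.Defs
import Vale.Agent.Lib.P065.KDefs

/-!
Pool job 210 (P065), backup copy by helper47: the classical injection from `k`-sets to directed
`(k - 1)`-edges.  For a `k`-set `S` with separating direction `v`, the pair `(p, q)` in
`S × (P \ S)` of maximal slope (in the frame `v`, `v^perp`) has exactly `S \ {p}` strictly to its
left, so `(p, q)` is a `(k - 1)`-edge and `S` is recovered from it.
-/

namespace Vale.Agent.Lib.P065.H47

open scoped Classical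
open Finset
open Vale.Agent.Lib.P065

/-- The frame identity: the cross product in the coordinates `X = <v, .>`, `Y = <v^perp, .>`. -/
theorem frame_cr (v p q r : ℝ × ℝ) :
    ((v.1 * q.1 + v.2 * q.2) - (v.1 * p.1 + v.2 * p.2)) *
        ((-v.2 * r.1 + v.1 * r.2) - (-v.2 * p.1 + v.1 * p.2)) -
      ((v.1 * r.1 + v.2 * r.2) - (v.1 * p.1 + v.2 * p.2)) *
        ((-v.2 * q.1 + v.1 * q.2) - (-v.2 * p.1 + v.1 * p.2)) =
      (v.1 ^ 2 + v.2 ^ 2) * cr p q r := by
  unfold cr; ring

/-- Every `k`-set `S` (with `1 ≤ k < |P|`) has a directed edge `(p, q)`, `p ∈ S`, `q ∈ P \ S`,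
such that the points of `P` strictly to the left of `p → q` are exactly `S \ {p}`. -/
theorem exists_tangent (P : Finset (ℝ × ℝ)) (hP : GenPos P) (k : ℕ) (hk1 : 1 ≤ k)
    (hk2 : k < P.card) (S : Finset (ℝ × ℝ)) (hS : IsKSet P k S) :
    ∃ p q : ℝ × ℝ, p ∈ S ∧ q ∈ P ∧ q ∉ S ∧
      P.filter (fun r => 0 < cr p q r) = S.erase p := by
  obtain ⟨hSP, hcard, v, c, hv, hlow, hhigh⟩ := hS
  have hSne : S.Nonempty := by
    rw [← Finset.card_pos]; omega
  have hTne : (P \ S).Nonempty := by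
    rw [← Finset.card_pos, Finset.card_sdiff_of_subset hSP]; omega
  set X : ℝ × ℝ → ℝ := fun a => v.1 * a.1 + v.2 * a.2 with hX
  set Y : ℝ × ℝ → ℝ := fun a => -v.2 * a.1 + v.1 * a.2 with hY
  have hN : 0 < v.1 ^ 2 + v.2 ^ 2 := by
    have : v.1 ≠ 0 ∨ v.2 ≠ 0 := by
      by_contra hcon
      push Not at hcon
      exact hv (Prod.ext hcon.1 hcon.2)
    rcases this with h | h
    · have := sq_pos_of_ne_zero h
      have := sq_nonneg v.2
      linarith
    · have := sq_pos_of_ne_zero h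
      have := sq_nonneg v.1
      linarith
  obtain ⟨⟨p, q⟩, hpq, hmax⟩ := Finset.exists_max_image (S ×ˢ (P \ S))
    (fun pq : (ℝ × ℝ) × (ℝ × ℝ) => (Y pq.2 - Y pq.1) / (X pq.2 - X pq.1))
    (Finset.Nonempty.product hSne hTne)
  rw [Finset.mem_product, Finset.mem_sdiff] at hpq
  obtain ⟨hpS, hqP, hqS⟩ := hpq
  have hpP : p ∈ P := hSP hpS
  have hpq : p ≠ q := fun h => hqS (h ▸ hpS)
  have hXpos : ∀ s ∈ S, ∀ t ∈ P, t ∉ S → 0 < X t - X s := by
    intro s hs t ht htS
    have h1 := hlow s hs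
    have h2 := hhigh t ht htS
    simp only [hX]
    linarith
  have hXpq := hXpos p hpS q hqP hqS
  -- points of `S` other than `p` are strictly to the left
  have hleft : ∀ s ∈ S, s ≠ p → 0 < cr p q s := by
    intro s hs hsp
    have hsq : s ≠ q := fun h => hqS (h ▸ hs)
    have hXsq := hXpos s hs q hqP hqS
    have hm := hmax (s, q) (Finset.mem_product.mpr ⟨hs, Finset.mem_sdiff.mpr ⟨hqP, hqS⟩⟩)
    simp only at hm
    rw [div_le_div_iff₀ hXsq hXpq] at hm
    have hid := frame_cr v p q s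
    have hge : 0 ≤ (v.1 ^ 2 + v.2 ^ 2) * cr p q s := by
      rw [← hid]
      simp only [hX, hY] at hm
      linarith
    have hge' : 0 ≤ cr p q s := by
      by_contra hneg
      push Not at hneg
      nlinarith
    exact lt_of_le_of_ne hge' (Ne.symm (hP p hpP q hqP s (hSP hs) hpq (Ne.symm hsp) (Ne.symm hsq)))
  -- points outside `S` other than `q` are strictly to the right
  have hright : ∀ t ∈ P, t ∉ S → t ≠ q → cr p q t < 0 := by
    intro t ht htS htq
    have htp : t ≠ p := fun h => htS (h ▸ hpS)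
    have hXpt := hXpos p hpS t ht htS
    have hm := hmax (p, t) (Finset.mem_product.mpr ⟨hpS, Finset.mem_sdiff.mpr ⟨ht, htS⟩⟩)
    simp only at hm
    rw [div_le_div_iff₀ hXpt hXpq] at hm
    have hid := frame_cr v p q t
    have hle : (v.1 ^ 2 + v.2 ^ 2) * cr p q t ≤ 0 := by
      rw [← hid]
      simp only [hX, hY] at hm
      linarith
    have hle' : cr p q t ≤ 0 := by
      by_contra hpos
      push Not at hpos
      nlinarith
    exact lt_of_le_of_ne hle' (hP p hpP q hqP t ht hpq (Ne.symm htp) (Ne.symm htq))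
  refine ⟨p, q, hpS, hqP, hqS, ?_⟩
  ext r
  simp only [Finset.mem_filter, Finset.mem_erase]
  constructor
  · rintro ⟨hrP, hr⟩
    have hrp : r ≠ p := by
      rintro rfl
      have : cr r q r = 0 := by unfold cr; ring
      rw [this] at hr
      exact lt_irrefl _ hr
    refine ⟨hrp, ?_⟩
    by_contra hrS
    have hrq : r ≠ q := by
      rintro rfl
      have : cr p r r = 0 := by unfold cr; ring
      rw [this] at hr
      exact lt_irrefl _ hr
    exact lt_asymm hr (hright r hrP hrS hrq)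
  · rintro ⟨hrp, hrS⟩
    exact ⟨hSP hrS, hleft r hrS hrp⟩

/-- Pool job 210: the number of `k`-sets is at most the number of directed `(k - 1)`-edges. -/
theorem card_kSets_le (P : Finset (ℝ × ℝ)) (hP : GenPos P) (k : ℕ) (hk1 : 1 ≤ k)
    (hk2 : k < P.card) :
    (kSets P k).card ≤ (P.offDiag.filter (fun pq => IsKEdge P (k - 1) pq.1 pq.2)).card := by
  have hex : ∀ S ∈ kSets P k, ∃ pq : (ℝ × ℝ) × (ℝ × ℝ), pq.1 ∈ S ∧ pq.2 ∈ P ∧ pq.2 ∉ S ∧
      P.filter (fun r => 0 < cr pq.1 pq.2 r) = S.erase pq.1 := by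
    intro S hS
    have hS' : IsKSet P k S := (Finset.mem_filter.mp hS).2
    obtain ⟨p, q, h1, h2, h3, h4⟩ := exists_tangent P hP k hk1 hk2 S hS'
    exact ⟨(p, q), h1, h2, h3, h4⟩
  set f : Finset (ℝ × ℝ) → (ℝ × ℝ) × (ℝ × ℝ) := fun S =>
    if h : S ∈ kSets P k then Classical.choose (hex S h) else ((0, 0), (0, 0)) with hf
  have hfspec : ∀ S (h : S ∈ kSets P k), (f S).1 ∈ S ∧ (f S).2 ∈ P ∧ (f S).2 ∉ S ∧
      P.filter (fun r => 0 < cr (f S).1 (f S).2 r) = S.erase (f S).1 := by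
    intro S h
    have := Classical.choose_spec (hex S h)
    simp only [hf, dif_pos h]
    exact this
  apply Finset.card_le_card_of_injOn f
  · intro S hS
    have hS' := Finset.mem_coe.mp hS
    obtain ⟨h1, h2, h3, h4⟩ := hfspec S hS'
    have hSk : IsKSet P k S := (Finset.mem_filter.mp hS').2
    rw [Finset.mem_coe, Finset.mem_filter, Finset.mem_offDiag]
    refine ⟨⟨hSk.1 h1, h2, fun h => h3 (h ▸ h1)⟩, fun h => h3 (h ▸ h1), ?_⟩
    rw [h4, Finset.card_erase_of_mem h1, hSk.2.1]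
  · intro S hS S' hS' hSS'
    have hS1 := hfspec S (Finset.mem_coe.mp hS)
    have hS2 := hfspec S' (Finset.mem_coe.mp hS')
    rw [← hSS'] at hS2
    have h4 : S.erase (f S).1 = S'.erase (f S).1 := by
      rw [← hS1.2.2.2, ← hS2.2.2.2]
    rw [← Finset.insert_erase hS1.1, ← Finset.insert_erase hS2.1, h4]

end Vale.Agent.Lib.P065.H47
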