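import Mathlib
import Vale.Agent.Lib.P065.Defs
import Vale.Agent.Lib.P065.LayerDefs

/-!
P065 pool job 2 (backup copy by helper47): the convex-layer index is a peeling labelling.
-/

namespace Vale.Agent.Lib.P065.H47

open scoped Classical
open Finset
open Vale.Agent.Lib.P065

/-- Every nonempty finite point set has a hull vertex (a point of maximal norm). -/
theorem hullVertices_nonempty (S : Finset (ℝ × ℝ)) (hS : S.Nonempty) :
    (hullVertices S).Nonempty := by
  obtain ⟨b, hb, hmax⟩ := Finset.exists_max_image S (fun q : ℝ × ℝ => q.1 ^ 2 + q.2 ^ 2) hS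
  refine ⟨b, ?_⟩
  unfold hullVertices
  rw [Finset.mem_filter]
  refine ⟨hb, (-b.1, -b.2), ?_⟩
  intro q hq hqb
  have h1 : q.1 ^ 2 + q.2 ^ 2 ≤ b.1 ^ 2 + b.2 ^ 2 := hmax q hq
  have h2 : 0 < (b.1 - q.1) ^ 2 + (b.2 - q.2) ^ 2 := by
    by_contra hcon
    push Not at hcon
    have e1 : b.1 - q.1 = 0 := by nlinarith [sq_nonneg (b.1 - q.1), sq_nonneg (b.2 - q.2)]
    have e2 : b.2 - q.2 = 0 := by nlinarith [sq_nonneg (b.1 - q.1), sq_nonneg (b.2 - q.2)]
    exact hqb (Prod.ext (by linarith) (by linarith))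
  simp only
  nlinarith

theorem card_peel_lt (S : Finset (ℝ × ℝ)) (hS : S.Nonempty) : (peel S).card < S.card := by
  unfold peel
  obtain ⟨b, hb⟩ := hullVertices_nonempty S hS
  have hbS : b ∈ S := by
    unfold hullVertices at hb
    exact (Finset.mem_filter.mp hb).1
  apply Finset.card_lt_card
  refine ⟨Finset.sdiff_subset, fun h => ?_⟩
  have := h hbS
  rw [Finset.mem_sdiff] at this
  exact this.2 hb

theorem peel_empty : peel (∅ : Finset (ℝ × ℝ)) = ∅ := by
  unfold peel; simp

theorem iterate_peel_eq_empty (n : ℕ) : ∀ S : Finset (ℝ × ℝ), S.card ≤ n → peel^[n] S = ∅ := by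
  induction n with
  | zero =>
    intro S hS
    simpa using hS
  | succ n ih =>
    intro S hS
    rw [Function.iterate_succ_apply]
    apply ih
    rcases Finset.eq_empty_or_nonempty S with h | h
    · rw [h, peel_empty]; simp
    · have := card_peel_lt S h
      omega

theorem iterate_numLayers (P : Finset (ℝ × ℝ)) : peel^[numLayers P] P = ∅ := by
  have hne : {i : ℕ | peel^[i] P = ∅}.Nonempty := ⟨P.card, iterate_peel_eq_empty P.card P le_rfl⟩
  exact Nat.sInf_mem hne

/-- Pool job: the convex-layer index is a peeling labelling with `numLayers P` levels. -/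
theorem exists_peeling_labelling (P : Finset (ℝ × ℝ)) :
    ∃ lay : ℝ × ℝ → ℕ, (∀ p ∈ P, 1 ≤ lay p ∧ lay p ≤ numLayers P) ∧
      ∀ b ∈ P, ∃ v : ℝ × ℝ, ∀ q ∈ P, q ≠ b → lay b ≤ lay q →
        0 < v.1 * (q.1 - b.1) + v.2 * (q.2 - b.2) := by
  set lay : ℝ × ℝ → ℕ := fun p => sInf {i : ℕ | p ∉ peel^[i] P} with hlay
  have hne : ∀ p, {i : ℕ | p ∉ peel^[i] P}.Nonempty := by
    intro p
    refine ⟨numLayers P, ?_⟩
    show p ∉ peel^[numLayers P] P
    rw [iterate_numLayers]
    exact Finset.notMem_empty p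
  have hmem : ∀ p, p ∉ peel^[lay p] P := fun p => Nat.sInf_mem (hne p)
  have hlt : ∀ p i, i < lay p → p ∈ peel^[i] P := by
    intro p i hi
    by_contra hcon
    exact Nat.notMem_of_lt_sInf hi hcon
  have hpos : ∀ p ∈ P, 1 ≤ lay p := by
    intro p hp
    by_contra hcon
    have h0 : lay p = 0 := by omega
    have := hmem p
    rw [h0] at this
    exact this (by simpa using hp)
  refine ⟨lay, fun p hp => ⟨hpos p hp, ?_⟩, ?_⟩
  · apply Nat.sInf_le
    show p ∉ peel^[numLayers P] P
    rw [iterate_numLayers]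
    exact Finset.notMem_empty p
  · intro b hb
    have hj := hpos b hb
    obtain ⟨j, hj'⟩ : ∃ j, lay b = j + 1 := ⟨lay b - 1, by omega⟩
    have hbS : b ∈ peel^[j] P := hlt b j (by omega)
    have hbn : b ∉ peel^[j + 1] P := by
      have := hmem b
      rwa [hj'] at this
    rw [Function.iterate_succ_apply'] at hbn
    have hbv : b ∈ hullVertices (peel^[j] P) := by
      by_contra hcon
      apply hbn
      unfold peel
      exact Finset.mem_sdiff.mpr ⟨hbS, hcon⟩
    unfold hullVertices at hbv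
    obtain ⟨v, hv⟩ := (Finset.mem_filter.mp hbv).2
    refine ⟨v, fun q _ hqb hle => ?_⟩
    exact hv q (hlt q j (by omega)) hqb

end Vale.Agent.Lib.P065.H47
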